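import Vale.Agent.P122.H466.Loc

/-! # P122 / H731 : geometry of nodes and caps: gauges of the children, region, counts of columns (helper731) -/

open MeasureTheory Complex Set Vale.Agent.P122.C2
open scoped ENNReal NNReal FourierTransform

set_option linter.all false

namespace Vale.Agent.P122.AN.B731

/-! ## caps -/

theorem cell_iff {m t a : ℤ} (hm : 0 < m) : a / m = t ↔ m * t ≤ a ∧ a < m * (t + 1) := by
  constructor
  · rintro rfl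
    refine ⟨Int.mul_ediv_self_le hm.ne', ?_⟩
    have := Int.lt_ediv_add_one_mul_self a hm
    linarith [mul_comm m (a / m + 1)]
  · rintro ⟨h1, h2⟩
    refine le_antisymm ?_ ?_
    · have : a / m < t + 1 := Int.ediv_lt_of_lt_mul hm (by linarith [mul_comm m (t + 1)])
      omega
    · exact (Int.le_ediv_iff_mul_le hm).2 (by linarith [mul_comm m t])

theorem mem_kids_par {n : ℕ} {τ τ' : Z2} : τ' ∈ kids n τ ↔ par n τ' = τ := by
  rw [mem_kids]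
  unfold par
  exact ⟨fun h => funext h, fun h k => congrFun h k⟩

theorem cap_kids {n i : ℕ} {τ τ' : Z2} (hc : Cap n i τ) (h : τ' ∈ kids n τ) : Cap n (i + 1) τ' := by
  intro k
  have h2 := (cell_iff (m := 2 ^ n) (by positivity)).1 (mem_kids.1 h k)
  obtain ⟨h3, h4⟩ := hc k
  have hp : (0 : ℤ) < 2 ^ n := by positivity
  refine ⟨le_trans (by positivity) h2.1, ?_⟩
  have e : (2 : ℤ) ^ ((i + 1) * n) = 2 ^ n * 2 ^ (i * n) := by rw [← pow_add]; congr 1; ring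
  rw [e]
  refine lt_of_lt_of_le h2.2 ?_
  exact mul_le_mul_of_nonneg_left (by omega) hp.le

theorem cap_par {n i : ℕ} {τ' : Z2} (h : Cap n (i + 1) τ') : Cap n i (par n τ') := by
  intro k
  obtain ⟨h1, h2⟩ := h k
  have hp : (0 : ℤ) < 2 ^ n := by positivity
  refine ⟨Int.ediv_nonneg h1 hp.le, ?_⟩
  refine Int.ediv_lt_of_lt_mul hp ?_
  have e : (2 : ℤ) ^ ((i + 1) * n) = 2 ^ (i * n) * 2 ^ n := by rw [← pow_add]; congr 1; ring
  rwa [e] at h2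

/-! ## slopes -/

theorem slp_kid {n i : ℕ} {τ τ' : Z2} (h : τ' ∈ kids n τ) (k : Fin 2) :
    |slp n (i + 1) τ' k - slp n i τ k| ≤ 1 / 2 ^ (i * n) := by
  have h2 := (cell_iff (m := 2 ^ n) (by positivity)).1 (mem_kids.1 h k)
  have h3 : (2:ℝ) ^ n * τ k ≤ τ' k := by exact_mod_cast h2.1
  have h4 : (τ' k : ℝ) < 2 ^ n * (τ k + 1) := by exact_mod_cast h2.2
  unfold slp
  have e : (2:ℝ) ^ ((i + 1) * n) = 2 ^ n * 2 ^ (i * n) := by rw [← pow_add]; congr 1; ring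
  have hp : (0:ℝ) < 2 ^ n := by positivity
  have hq : (0:ℝ) < 2 ^ (i * n) := by positivity
  have e2 : (τ' k : ℝ) / 2 ^ ((i + 1) * n) - τ k / 2 ^ (i * n) = ((τ' k : ℝ) - 2 ^ n * τ k) / 2 ^ n / 2 ^ (i * n) := by
    rw [e]; field_simp
  rw [e2, abs_div, abs_of_pos hq]
  refine div_le_div_of_nonneg_right ?_ hq.le
  rw [abs_div, abs_of_pos hp, div_le_one hp, abs_le]
  constructor <;> linarith

theorem slp_le {n i : ℕ} {τ : Z2} (h : Cap n i τ) (k : Fin 2) : |slp n i τ k| ≤ 1 := by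
  obtain ⟨h1, h2⟩ := h k
  have h3 : (0:ℝ) ≤ τ k := by exact_mod_cast h1
  have h4 : (τ k : ℝ) ≤ 2 ^ (i * n) := by exact_mod_cast h2.le
  unfold slp
  rw [abs_div, abs_of_nonneg h3, abs_of_pos (by positivity), div_le_one (by positivity)]
  exact h4

theorem slp_diff {n i : ℕ} (τ τ' : Z2) (k : Fin 2) :
    (2:ℝ) ^ (i * n) * (slp n i τ k - slp n i τ' k) = τ k - τ' k := by
  have hp : (0:ℝ) < 2 ^ (i * n) := by positivity
  unfold slp
  rw [← sub_div]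
  field_simp

theorem slp_Slp {C : ℝ} (hC : 1 ≤ C) (n K : ℕ) : Slp C n K (slp n) where
  bd := fun i τ k hi hc => slp_le hc k
  nest := by
    intro i τ k hi hc
    refine (slp_kid (mem_kids_par.2 rfl) k).trans ?_
    exact div_le_div_of_nonneg_right hC (by positivity)
  lip := by
    intro i τ τ' k hi h1 h2
    unfold slp
    rw [← sub_div, abs_div, abs_of_pos (by positivity : (0:ℝ) < 2 ^ (i * n))]
    refine div_le_div_of_nonneg_right ?_ (by positivity)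
    have a0 := abs_nonneg ((τ 0 : ℝ) - τ' 0)
    have a1 := abs_nonneg ((τ 1 : ℝ) - τ' 1)
    have : |(τ k : ℝ) - τ' k| ≤ |(τ 0 : ℝ) - τ' 0| + |(τ 1 : ℝ) - τ' 1| := by
      fin_cases k
      · simp only [Fin.zero_eta]; linarith
      · simp only [Fin.mk_one]; linarith
    nlinarith
  colip := by
    intro i τ τ' hi h1 h2
    have hp : (0:ℝ) < 2 ^ (i * n) := by positivity
    have e : ∀ k, (2:ℝ) ^ (i * n) * |slp n i τ k - slp n i τ' k| = |(τ k : ℝ) - τ' k| := by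
      intro k
      rw [← slp_diff (n := n) (i := i), abs_mul, abs_of_pos hp]
    have e3 : (2:ℝ) ^ (i * n) * (|slp n i τ 0 - slp n i τ' 0| + |slp n i τ 1 - slp n i τ' 1|) =
        |(τ 0 : ℝ) - τ' 0| + |(τ 1 : ℝ) - τ' 1| := by rw [mul_add, e 0, e 1]
    rw [e3]
    have a0 := abs_nonneg ((τ 0 : ℝ) - τ' 0)
    have a1 := abs_nonneg ((τ 1 : ℝ) - τ' 1)
    nlinarith

/-! ## gauges of the children -/

theorem fw_zero (v : Fin 2 → ℝ) : fw 0 v = v 0 := by unfold fw; simp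

theorem fn_zero (v : Fin 2 → ℝ) : fn 0 v = v 1 := by unfold fn; simp

theorem dv0 (s : Fin 2 → ℝ) (z : E3) : dv s z 0 = z 0 - s 0 * z 2 := rfl
theorem dv1 (s : Fin 2 → ℝ) (z : E3) : dv s z 1 = z 1 - s 1 * z 2 := rfl

/-- time coordinate of the base points -/
theorem bp_T (n i : ℕ) (S : Nd) (s : ℕ → Z2 → Fin 2 → ℝ) (τ' : Z2) :
    (bp n i S - bp n (i + 1) ((S.sg n).ch s n i τ')) 2 = 2 ^ (2 * i * n) * ((S.T % 2 ^ (2 * n) : ℤ) : ℝ) := by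
  have h := Int.emod_add_mul_ediv S.T (2 ^ (2 * n))
  have h' : (S.T : ℝ) = ((S.T % 2 ^ (2 * n) : ℤ) : ℝ) + 2 ^ (2 * n) * ((S.T / 2 ^ (2 * n) : ℤ) : ℝ) := by exact_mod_cast h.symm
  have e1 : (bp n i S - bp n (i + 1) ((S.sg n).ch s n i τ')) 2 =
      2 ^ (2 * i * n) * (S.T : ℝ) - 2 ^ (2 * (i + 1) * n) * ((S.T / 2 ^ (2 * n) : ℤ) : ℝ) := rfl
  have e : (2:ℝ) ^ (2 * (i + 1) * n) = 2 ^ (2 * i * n) * 2 ^ (2 * n) := by rw [← pow_add]; congr 1; ring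
  rw [e1, e, h']
  ring

theorem bp_k (n i : ℕ) (S : Nd) (s : ℕ → Z2 → Fin 2 → ℝ) (τ' : Z2) (k : Fin 2) :
    0 ≤ 2 ^ (i * n) * (S.o k : ℝ) - 2 ^ ((i + 1) * n) * ((((S.sg n).ch s n i τ').o k : ℤ) : ℝ) -
      s (i + 1) τ' k * (2 ^ (2 * i * n) * ((S.T % 2 ^ (2 * n) : ℤ) : ℝ)) ∧
    2 ^ (i * n) * (S.o k : ℝ) - 2 ^ ((i + 1) * n) * ((((S.sg n).ch s n i τ').o k : ℤ) : ℝ) -
      s (i + 1) τ' k * (2 ^ (2 * i * n) * ((S.T % 2 ^ (2 * n) : ℤ) : ℝ)) ≤ 2 * 2 ^ ((i + 1) * n) := by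
  have hp : (0:ℝ) < 2 ^ (i * n) := by positivity
  have hq : (0:ℝ) < 2 ^ ((i + 1) * n) := by positivity
  have h2 := (cell_iff (m := 2 ^ n) (t := S.o k / 2 ^ n) (a := S.o k) (by positivity)).1 rfl
  have h3 : (2:ℝ) ^ n * ((S.o k / 2 ^ n : ℤ) : ℝ) ≤ S.o k := by exact_mod_cast h2.1
  have h4 : (S.o k : ℝ) ≤ 2 ^ n * (((S.o k / 2 ^ n : ℤ) : ℝ) + 1) := by exact_mod_cast h2.2.le
  have e : (2:ℝ) ^ ((i + 1) * n) = 2 ^ (i * n) * 2 ^ n := by rw [← pow_add]; congr 1; ring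
  set X : ℝ := ((S.o k / 2 ^ n : ℤ) : ℝ) - ((S.T % 2 ^ (2 * n) : ℤ) : ℝ) * 2 ^ (2 * i * n) * s (i + 1) τ' k / 2 ^ ((i + 1) * n)
    with hX
  have ho : (((S.sg n).ch s n i τ').o k) = ⌊X⌋ := rfl
  have f1 := Int.floor_le X
  have f2 := (Int.lt_floor_add_one X).le
  rw [ho]
  have hX2 : 2 ^ ((i + 1) * n) * X = 2 ^ ((i + 1) * n) * ((S.o k / 2 ^ n : ℤ) : ℝ) -
      ((S.T % 2 ^ (2 * n) : ℤ) : ℝ) * 2 ^ (2 * i * n) * s (i + 1) τ' k := by
    rw [hX]; field_simp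
  have g1 : 2 ^ ((i + 1) * n) * (⌊X⌋ : ℝ) ≤ 2 ^ ((i + 1) * n) * X := mul_le_mul_of_nonneg_left f1 hq.le
  have g2 : 2 ^ ((i + 1) * n) * X ≤ 2 ^ ((i + 1) * n) * ((⌊X⌋ : ℝ) + 1) := mul_le_mul_of_nonneg_left f2 hq.le
  have g3 : 2 ^ ((i + 1) * n) * ((S.o k / 2 ^ n : ℤ) : ℝ) ≤ 2 ^ (i * n) * (S.o k : ℝ) := by
    rw [e, mul_assoc]; exact mul_le_mul_of_nonneg_left h3 hp.le
  have g4 : 2 ^ (i * n) * (S.o k : ℝ) ≤ 2 ^ ((i + 1) * n) * (((S.o k / 2 ^ n : ℤ) : ℝ) + 1) := by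
    rw [e, mul_assoc]; exact mul_le_mul_of_nonneg_left h4 hp.le
  constructor
  · nlinarith
  · nlinarith

/-- the child through the piece of `S` passes close to the base point of `S` -/
theorem gau_ch (n i : ℕ) (S : Nd) (τ' : Z2) :
    gau 0 (2 ^ ((i + 1) * n)) (2 ^ ((i + 1) * n)) (2 ^ (2 * (i + 1) * n)) (slp n (i + 1) τ')
      (bp n i S - bp n (i + 1) ((S.sg n).ch (slp n) n i τ')) ≤ 5 := by
  have hq : (0:ℝ) < 2 ^ ((i + 1) * n) := by positivity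
  have hq2 : (0:ℝ) < 2 ^ (2 * (i + 1) * n) := by positivity
  have hT := bp_T n i S (slp n) τ'
  have e0 := bp_k n i S (slp n) τ' 0
  have e1 := bp_k n i S (slp n) τ' 1
  unfold gau
  rw [fw_zero, fn_zero, dv0, dv1, hT]
  have d0 : (bp n i S - bp n (i + 1) ((S.sg n).ch (slp n) n i τ')) 0 =
    2 ^ (i * n) * (S.o 0 : ℝ) - 2 ^ ((i + 1) * n) * ((((S.sg n).ch (slp n) n i τ').o 0 : ℤ) : ℝ) := rfl
  have d1 : (bp n i S - bp n (i + 1) ((S.sg n).ch (slp n) n i τ')) 1 =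
    2 ^ (i * n) * (S.o 1 : ℝ) - 2 ^ ((i + 1) * n) * ((((S.sg n).ch (slp n) n i τ').o 1 : ℤ) : ℝ) := rfl
  rw [d0, d1, abs_of_nonneg e0.1, abs_of_nonneg e1.1]
  have a0 := (div_le_iff₀ hq).2 e0.2
  have a1 := (div_le_iff₀ hq).2 e1.2
  have m1 : 0 ≤ S.T % 2 ^ (2 * n) := Int.emod_nonneg _ (by positivity)
  have m2 : S.T % 2 ^ (2 * n) < 2 ^ (2 * n) := Int.emod_lt_of_pos _ (by positivity)
  have m1' : (0:ℝ) ≤ ((S.T % 2 ^ (2 * n) : ℤ) : ℝ) := by exact_mod_cast m1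
  have m2' : ((S.T % 2 ^ (2 * n) : ℤ) : ℝ) ≤ 2 ^ (2 * n) := by exact_mod_cast m2.le
  have e : (2:ℝ) ^ (2 * (i + 1) * n) = 2 ^ (2 * i * n) * 2 ^ (2 * n) := by rw [← pow_add]; congr 1; ring
  have a2 : |2 ^ (2 * i * n) * ((S.T % 2 ^ (2 * n) : ℤ) : ℝ)| / 2 ^ (2 * (i + 1) * n) ≤ 1 := by
    rw [div_le_one hq2, abs_of_nonneg (by positivity), e]
    exact mul_le_mul_of_nonneg_left m2' (by positivity)
  linarith

/-- gauge of the child tube against the gauge of the tube -/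
theorem gau_tub {n i : ℕ} {τ τ' : Z2} (h : τ' ∈ kids n τ) (z : E3) :
    gau 0 (2 ^ ((i + 1) * n)) (2 ^ ((i + 1) * n)) (2 ^ (2 * (i + 1) * n)) (slp n (i + 1) τ') z ≤
      3 * gau 0 (2 ^ (i * n)) (2 ^ (i * n)) (2 ^ (2 * i * n)) (slp n i τ) z := by
  have hp : (0:ℝ) < 2 ^ (i * n) := by positivity
  have hq : (0:ℝ) < 2 ^ ((i + 1) * n) := by positivity
  have hpq : (2:ℝ) ^ (i * n) ≤ 2 ^ ((i + 1) * n) := pow_le_pow_right₀ (by norm_num) (Nat.mul_le_mul_right n (by omega))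
  have hp2 : (0:ℝ) < 2 ^ (2 * i * n) := by positivity
  have hpq2 : (2:ℝ) ^ (2 * i * n) ≤ 2 ^ (2 * (i + 1) * n) := pow_le_pow_right₀ (by norm_num) (Nat.mul_le_mul_right n (by omega))
  unfold gau
  rw [fw_zero, fn_zero, fw_zero, fn_zero, dv0, dv1, dv0, dv1]
  have key : ∀ k : Fin 2, ∀ w : ℝ, |w - slp n (i + 1) τ' k * z 2| / 2 ^ ((i + 1) * n) ≤
      |w - slp n i τ k * z 2| / 2 ^ (i * n) + |z 2| / 2 ^ (2 * i * n) := by
    intro k w
    have h1 := slp_kid (i := i) h k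
    have h2 : |w - slp n (i + 1) τ' k * z 2| ≤ |w - slp n i τ k * z 2| + 1 / 2 ^ (i * n) * |z 2| := by
      have e : w - slp n (i + 1) τ' k * z 2 = (w - slp n i τ k * z 2) - (slp n (i + 1) τ' k - slp n i τ k) * z 2 := by ring
      rw [e]
      refine (abs_sub _ _).trans (add_le_add le_rfl ?_)
      rw [abs_mul]
      exact mul_le_mul_of_nonneg_right h1 (abs_nonneg _)
    have hn : 0 ≤ |w - slp n i τ k * z 2| + 1 / 2 ^ (i * n) * |z 2| := by positivity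
    calc |w - slp n (i + 1) τ' k * z 2| / 2 ^ ((i + 1) * n)
        ≤ (|w - slp n i τ k * z 2| + 1 / 2 ^ (i * n) * |z 2|) / 2 ^ ((i + 1) * n) := div_le_div_of_nonneg_right h2 hq.le
      _ ≤ (|w - slp n i τ k * z 2| + 1 / 2 ^ (i * n) * |z 2|) / 2 ^ (i * n) := div_le_div_of_nonneg_left hn hp hpq
      _ = _ := by rw [pw2]; field_simp
  have k0 := key 0 (z 0)
  have k1 := key 1 (z 1)
  have k2 : |z 2| / 2 ^ (2 * (i + 1) * n) ≤ |z 2| / 2 ^ (2 * i * n) := div_le_div_of_nonneg_left (abs_nonneg _) hp2 hpq2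
  have p0 : 0 ≤ |z 0 - slp n i τ 0 * z 2| / 2 ^ (i * n) := by positivity
  have p1 : 0 ≤ |z 1 - slp n i τ 1 * z 2| / 2 ^ (i * n) := by positivity
  linarith

/-- gauge of a child node against the gauge of the node -/
theorem gau_node {n i : ℕ} (S : Nd) {τ' : Z2} (h : τ' ∈ kids n S.τ) (z : E3) :
    gau 0 (2 ^ ((i + 1) * n)) (2 ^ ((i + 1) * n)) (2 ^ (2 * (i + 1) * n)) (slp n (i + 1) τ')
      (z - bp n (i + 1) ((S.sg n).ch (slp n) n i τ')) ≤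
      3 * gau 0 (2 ^ (i * n)) (2 ^ (i * n)) (2 ^ (2 * i * n)) (slp n i S.τ) (z - bp n i S) + 5 := by
  have h1 := gau_add (θ := 0) (ρ1 := 2 ^ ((i + 1) * n)) (ρ2 := 2 ^ ((i + 1) * n)) (ρ3 := 2 ^ (2 * (i + 1) * n))
    (s := slp n (i + 1) τ') (by positivity) (by positivity) (by positivity) (z - bp n i S)
    (bp n i S - bp n (i + 1) ((S.sg n).ch (slp n) n i τ'))
  rw [sub_add_sub_cancel] at h1
  linarith [gau_tub (i := i) h (z - bp n i S), gau_ch n i S τ']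

/-- weight of the node against the weight of a child -/
theorem wN_le {M n i : ℕ} (S : Nd) {τ' : Z2} (h : τ' ∈ kids n S.τ) (z : E3) :
    wN M n i S z ≤ ENNReal.ofReal (6 ^ M) * wN M n (i + 1) ((S.sg n).ch (slp n) n i τ') z := by
  unfold wN wg
  rw [← ENNReal.ofReal_mul (by positivity)]
  refine ENNReal.ofReal_le_ofReal ?_
  have h1 := gau_node (i := i) S h z
  have p1 := gau_nonneg (θ := 0) (ρ1 := 2 ^ (i * n)) (ρ2 := 2 ^ (i * n)) (ρ3 := 2 ^ (2 * i * n)) (s := slp n i S.τ)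
    (by positivity) (by positivity) (by positivity) (z - bp n i S)
  have p2 := gau_nonneg (θ := 0) (ρ1 := 2 ^ ((i + 1) * n)) (ρ2 := 2 ^ ((i + 1) * n)) (ρ3 := 2 ^ (2 * (i + 1) * n))
    (s := slp n (i + 1) τ') (by positivity) (by positivity) (by positivity)
    (z - bp n (i + 1) ((S.sg n).ch (slp n) n i τ'))
  have eτ : ((S.sg n).ch (slp n) n i τ').τ = τ' := rfl
  rw [eτ]
  revert h1 p1 p2
  generalize gau 0 (2 ^ ((i + 1) * n)) (2 ^ ((i + 1) * n)) (2 ^ (2 * (i + 1) * n)) (slp n (i + 1) τ')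
    (z - bp n (i + 1) ((S.sg n).ch (slp n) n i τ')) = b
  generalize gau 0 (2 ^ (i * n)) (2 ^ (i * n)) (2 ^ (2 * i * n)) (slp n i S.τ) (z - bp n i S) = a
  intro h1 p1 p2
  rw [← div_eq_mul_inv, le_div_iff₀ (by positivity), inv_mul_le_iff₀ (by positivity), mul_comm, ← mul_pow]
  exact pow_le_pow_left₀ (by linarith) (by linarith) M

/-! ## the region -/

/-- region of the nodes of level `i` -/
def Rg (K n i : ℕ) (S : Nd) : Prop :=
  0 ≤ S.T ∧ S.T < 2 ^ (2 * (K - i) * n) ∧ ∀ k, |S.o k| ≤ (1 + 3 * i) * 2 ^ ((2 * K - i) * n)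

theorem rg_ch {K n i : ℕ} (hi : i < K) {S : Nd} (hR : Rg K n i S) (hc : Cap n i S.τ) {τ' : Z2} (h : τ' ∈ kids n S.τ) :
    Rg K n (i + 1) ((S.sg n).ch (slp n) n i τ') := by
  obtain ⟨h1, h2, h3⟩ := hR
  refine ⟨Int.ediv_nonneg h1 (by positivity), ?_, fun k => ?_⟩
  · have e : (2:ℤ) ^ (2 * (K - i) * n) = 2 ^ (2 * (K - (i + 1)) * n) * 2 ^ (2 * n) := by
      rw [← pow_add]; congr 1
      have : K - i = K - (i + 1) + 1 := by omega
      rw [this]; ring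
    refine Int.ediv_lt_of_lt_mul (by positivity) ?_
    rw [← e]; exact h2
  · have hq : (0:ℝ) < 2 ^ ((i + 1) * n) := by positivity
    set X : ℝ := ((S.o k / 2 ^ n : ℤ) : ℝ) - ((S.T % 2 ^ (2 * n) : ℤ) : ℝ) * 2 ^ (2 * i * n) * slp n (i + 1) τ' k / 2 ^ ((i + 1) * n)
      with hX
    have ho : (((S.sg n).ch (slp n) n i τ').o k) = ⌊X⌋ := rfl
    have f1 := Int.floor_le X
    have f2 := (Int.lt_floor_add_one X).le
    have m1 : 0 ≤ S.T % 2 ^ (2 * n) := Int.emod_nonneg _ (by positivity)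
    have m2 : S.T % 2 ^ (2 * n) < 2 ^ (2 * n) := Int.emod_lt_of_pos _ (by positivity)
    have m1' : (0:ℝ) ≤ ((S.T % 2 ^ (2 * n) : ℤ) : ℝ) := by exact_mod_cast m1
    have m2' : ((S.T % 2 ^ (2 * n) : ℤ) : ℝ) ≤ 2 ^ (2 * n) := by exact_mod_cast m2.le
    have hs := slp_le (cap_kids hc h) k
    set B : ℝ := 2 ^ ((2 * K - (i + 1)) * n) with hB
    have hB1 : 1 ≤ B := one_le_pow₀ (by norm_num)
    have b1 : |((S.T % 2 ^ (2 * n) : ℤ) : ℝ) * 2 ^ (2 * i * n) * slp n (i + 1) τ' k / 2 ^ ((i + 1) * n)| ≤ B := by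
      rw [abs_div, abs_of_pos hq, div_le_iff₀ hq, abs_mul, abs_of_nonneg (by positivity)]
      have hb : (2:ℝ) ^ ((i + 1) * n) ≤ B := pow_le_pow_right₀ (by norm_num) (Nat.mul_le_mul_right n (by omega))
      calc ((S.T % 2 ^ (2 * n) : ℤ) : ℝ) * 2 ^ (2 * i * n) * |slp n (i + 1) τ' k|
          ≤ 2 ^ (2 * n) * 2 ^ (2 * i * n) * 1 :=
            mul_le_mul (mul_le_mul_of_nonneg_right m2' (by positivity)) hs (abs_nonneg _) (by positivity)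
        _ = 2 ^ ((i + 1) * n) * 2 ^ ((i + 1) * n) := by rw [mul_one, ← pow_add, ← pow_add]; congr 1; ring
        _ ≤ B * 2 ^ ((i + 1) * n) := mul_le_mul_of_nonneg_right hb hq.le
    have b2 : |((S.o k / 2 ^ n : ℤ) : ℝ)| ≤ (1 + 3 * i) * B + 1 := by
      have h2' := (cell_iff (m := 2 ^ n) (t := S.o k / 2 ^ n) (a := S.o k) (by positivity)).1 rfl
      have h3' : (2:ℝ) ^ n * ((S.o k / 2 ^ n : ℤ) : ℝ) ≤ S.o k := by exact_mod_cast h2'.1
      have h4' : (S.o k : ℝ) ≤ 2 ^ n * (((S.o k / 2 ^ n : ℤ) : ℝ) + 1) := by exact_mod_cast h2'.2.le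
      have h5' : |(S.o k : ℝ)| ≤ (1 + 3 * i) * 2 ^ ((2 * K - i) * n) := by exact_mod_cast h3 k
      have e : (2:ℝ) ^ ((2 * K - i) * n) = 2 ^ n * B := by
        rw [hB, ← pow_add]; congr 1
        have : 2 * K - i = (2 * K - (i + 1)) + 1 := by omega
        rw [this]; ring
      rw [e] at h5'
      have hn : (0:ℝ) < 2 ^ n := by positivity
      obtain ⟨l1, l2⟩ := abs_le.1 h5'
      rw [abs_le]
      constructor
      · have : 2 ^ n * (-((1 + 3 * (i:ℝ)) * B + 1)) ≤ 2 ^ n * ((S.o k / 2 ^ n : ℤ) : ℝ) := by nlinarith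
        exact le_of_mul_le_mul_left this hn
      · have : 2 ^ n * ((S.o k / 2 ^ n : ℤ) : ℝ) ≤ 2 ^ n * ((1 + 3 * (i:ℝ)) * B) := by nlinarith
        linarith [le_of_mul_le_mul_left this hn]
    rw [ho]
    have goal : |(⌊X⌋ : ℝ)| ≤ (1 + 3 * ((i:ℝ) + 1)) * B := by
      obtain ⟨c1, c2⟩ := abs_le.1 b1
      obtain ⟨d1, d2⟩ := abs_le.1 b2
      rw [abs_le]
      constructor <;> nlinarith
    have goal' : |(⌊X⌋ : ℝ)| ≤ (1 + 3 * ((i + 1 : ℕ) : ℝ)) * 2 ^ ((2 * K - (i + 1)) * n) := by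
      push_cast; exact goal
    exact_mod_cast goal'

end Vale.Agent.P122.AN.B731
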