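import Vale.Agent.P122.H731.Box

/-! # P122 / H731 : overlaps of the children (disc), dual box with a centre (helper731) -/

open MeasureTheory Complex Set Vale.Agent.P122.C2
open scoped ENNReal NNReal FourierTransform

set_option linter.all false

namespace Vale.Agent.P122.AN.B731

/-- number of the caps in a ball of caps -/
theorem card_near {J : Finset Z2} {t : Z2} {B : ℕ} (h : ∀ l ∈ J, ∀ k, |(t k : ℝ) - l k| ≤ B) :
    J.card ≤ (2 * B + 1) ^ 2 := by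
  have hsub : J ⊆ Fintype.piFinset fun k => Finset.Icc (t k - B) (t k + B) := by
    intro l hl
    rw [Fintype.mem_piFinset]
    intro k
    rw [Finset.mem_Icc]
    have h1 : |t k - l k| ≤ (B : ℤ) := by exact_mod_cast h l hl k
    obtain ⟨a, b⟩ := abs_le.1 h1
    constructor <;> omega
  refine (Finset.card_le_card hsub).trans ?_
  rw [Fintype.card_piFinset]
  simp only [Int.card_Icc, Fin.prod_univ_two]
  have e : ∀ a : ℤ, (a + B + 1 - (a - B)).toNat = 2 * B + 1 := by intro a; omega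
  rw [e, e]
  exact le_of_eq (by ring)

section
variable {C : ℝ} {K n : ℕ} {Q : Set (Fin 2 → ℝ)} {h : (Fin 2 → ℝ) → ℝ} {v : (Fin 2 → ℝ) → Fin 2 → ℝ} {g : Z2 → E3 → ℂ}

/-- two children whose supports are closer than the dual disc are neighbours -/
theorem near_pt (hS : Srf C Q h v) (hD : Dat C K n Q h v g) (hC : 1 ≤ C) {j : ℕ} (hj : j ≤ K) {t l : Z2} {ξ η : E3} {a θ : ℝ}
    (hξ : gs K n g j t ξ ≠ 0) (hη : gs K n g j l η ≠ 0)
    (h1 : |fw θ (hz (ξ - η))| ≤ a / 2 ^ (j * n)) (h2 : |fn θ (hz (ξ - η))| ≤ a / 2 ^ (j * n)) (k : Fin 2) :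
    |(t k : ℝ) - l k| ≤ 2 * C * a + 2 * (C + 1) := by
  obtain ⟨a1, a2, a3⟩ := gs_supp hD hj (by linarith) hξ
  obtain ⟨b1, b2, b3⟩ := gs_supp hD hj (by linarith) hη
  have hρ : (0:ℝ) < 2 ^ (j * n) := by positivity
  rw [hz_sub] at h1 h2
  have e0 := abs_c0_le θ (fun i => hz ξ i - hz η i)
  have e1 := abs_c1_le θ (fun i => hz ξ i - hz η i)
  have hsum : a / 2 ^ (j * n) + a / 2 ^ (j * n) = 2 * a / 2 ^ (j * n) := by ring
  have hn : ‖hz ξ - hz η‖ ≤ 2 * a / 2 ^ (j * n) := by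
    have ha : 0 ≤ 2 * a / 2 ^ (j * n) := by
      rw [← hsum]; linarith [(abs_nonneg _).trans h1]
    rw [pi_norm_le_iff_of_nonneg ha]
    intro i
    rw [Pi.sub_apply, Real.norm_eq_abs, ← hsum]
    fin_cases i
    · exact e0.trans (add_le_add h1 h2)
    · exact e1.trans (add_le_add h1 h2)
  have hv := (abs_le_norm _ k).trans ((hS.up _ a1 _ b1).trans (mul_le_mul_of_nonneg_left hn (by linarith)))
  rw [Pi.sub_apply] at hv
  have hs : |slp n j t k - slp n j l k| ≤ (2 * C * a + 2 * (C + 1)) / 2 ^ (j * n) := by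
    have e : slp n j t k - slp n j l k = (v (hz ξ) k - v (hz η) k) - (v (hz ξ) k - slp n j t k) + (v (hz η) k - slp n j l k) := by
      ring
    have es : (2 * C * a + 2 * (C + 1)) / 2 ^ (j * n) = C * (2 * a / 2 ^ (j * n)) + (C + 1) / 2 ^ (j * n) + (C + 1) / 2 ^ (j * n) := by
      ring
    rw [e, es]
    exact (abs_add_le _ _).trans (add_le_add ((abs_sub _ _).trans (add_le_add hv (a2 k))) (b2 k))
  rw [← slp_diff (n := n) (i := j), abs_mul, abs_of_pos hρ]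
  calc 2 ^ (j * n) * |slp n j t k - slp n j l k| ≤ 2 ^ (j * n) * ((2 * C * a + 2 * (C + 1)) / 2 ^ (j * n)) :=
        mul_le_mul_of_nonneg_left hs hρ.le
    _ = _ := by field_simp

end

/-- the dual box with a centre (input of `StREP`) -/
theorem dual_ctr {C : ℝ} (hC : 1 ≤ C) : ∃ c : ℝ, 1 ≤ c ∧ ∀ (K n : ℕ) (Q : Set (Fin 2 → ℝ)) (h : (Fin 2 → ℝ) → ℝ)
    (v : (Fin 2 → ℝ) → Fin 2 → ℝ) (g : Z2 → E3 → ℂ), Srf C Q h v → Dat C K n Q h v g → ∀ i ≤ K, ∀ τ : Z2, ∃ ξ0 : E3,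
      ∀ ξ, gs K n g i τ ξ ≠ 0 → Dual c 0 (2 ^ (i * n)) (2 ^ (i * n)) (2 ^ (2 * i * n)) (slp n i τ) (ξ - ξ0) := by
  refine ⟨cD C, ?_, ?_⟩
  · unfold cD
    have : 0 ≤ C * (2 * C * (C + 1)) ^ 2 + 2 * (C + 1) * (2 * C * (C + 1)) + 2 * C * (C + 1) := by positivity
    linarith
  · intro K n Q h v g hS hD i hi τ
    by_cases hex : ∃ η, gs K n g i τ η ≠ 0
    · obtain ⟨η, hη⟩ := hex
      exact ⟨η, fun ξ hξ => dual_gs hS hD hC hi hξ hη⟩
    · push Not at hex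
      exact ⟨0, fun ξ hξ => absurd (hex ξ) hξ⟩

/-- [near1] in the form of helper275 -/
theorem near1 {C : ℝ} (hC : 1 ≤ C) : ∃ m : ℕ, ∀ (K n : ℕ) (Q : Set (Fin 2 → ℝ)) (h : (Fin 2 → ℝ) → ℝ)
    (v : (Fin 2 → ℝ) → Fin 2 → ℝ) (g : Z2 → E3 → ℂ), Srf C Q h v → Dat C K n Q h v g → ∀ i < K, ∀ (G : Finset Z2)
    (θ R : ℝ) (s : Fin 2 → ℝ), ∀ k ∈ G, ∀ J ⊆ G, (∀ l ∈ J, ∃ ξ η, gs K n g (i + 1) k ξ ≠ 0 ∧ gs K n g (i + 1) l η ≠ 0 ∧
      Dual 1 θ (2 ^ ((i + 1) * n)) (2 ^ ((i + 1) * n)) R s (ξ - η)) → J.card ≤ m := by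
  obtain ⟨B, hB⟩ := exists_nat_ge (2 * C * 1 + 2 * (C + 1))
  refine ⟨(2 * B + 1) ^ 2, ?_⟩
  intro K n Q h v g hS hD i hi G θ R s k hk J hJ hl
  refine card_near (t := k) fun l hlJ j => ?_
  obtain ⟨ξ, η, hξ, hη, hd⟩ := hl l hlJ
  exact (near_pt hS hD hC (by omega) hξ hη hd.1 hd.2.1 j).trans hB

end Vale.Agent.P122.AN.B731
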